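import Vale.Agent.HDX.Q.Flags
import Vale.Agent.HDX.Q.Pairs

/-! The geometry of subspaces over a finite field, with the upper bound for Gaussian binomials. -/

namespace Vale.Agent.P067.Full.Mix

open Finset Module Vale.Agent.HDX.Q

variable (K : Type) [Field K] [Fintype K]

/-- The number of subspaces of dimension `s` in a space of dimension `m`. -/
noncomputable def subCount (m s : ℕ) : ℕ :=
  Nat.card {W : Submodule K (Fin m → K) // finrank K W = s}

variable {K}

section General

variable {V : Type*} [AddCommGroup V] [Module K V] [FiniteDimensional K V]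

/-- Counting the subspaces of an interval. -/
lemma card_interval_subspaces {X Y : Submodule K V} (h : X ≤ Y) (s : ℕ) :
    Nat.card {Z : Submodule K V //
        X ≤ Z ∧ Z ≤ Y ∧ finrank K Z = finrank K X + s} =
      subCount K (finrank K Y - finrank K X) s := by
  obtain ⟨c, hc⟩ := exists_isCompl X
  set W : Submodule K V := Y ⊓ c with hW
  have hXW : X ⊓ W = ⊥ := le_bot_iff.mp ((inf_le_inf_left X inf_le_right).trans hc.inf_eq_bot.le)
  have hfib : ∀ Z, X ≤ Z → Z ≤ Y → X ⊔ (W ⊓ Z) = Z := by
    intro Z h1 h2
    rw [hW, inf_right_comm, inf_eq_right.mpr h2, inf_comm Z c, ← sup_inf_assoc_of_le c h1,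
      hc.sup_eq_top, top_inf_eq]
  have hback : ∀ U : Submodule K V, U ≤ W → W ⊓ (X ⊔ U) = U := by
    intro U hU
    rw [inf_comm, sup_comm, sup_inf_assoc_of_le X hU, hXW, sup_bot_eq]
  have hrk : ∀ U : Submodule K V, U ≤ W →
      finrank K ↥(X ⊔ U) = finrank K X + finrank K U := by
    intro U hU
    have h1 := Submodule.finrank_sup_add_finrank_inf_eq X U
    rw [le_bot_iff.mp ((inf_le_inf_left X hU).trans hXW.le), finrank_bot] at h1
    omega
  have hsub : ∀ U : Submodule K W,
      finrank K ↥(U.map W.subtype) = finrank K U :=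
    fun U => Submodule.finrank_map_subtype_eq W U
  have hWr : finrank K W = finrank K Y - finrank K X := by
    have h1 := hrk W le_rfl
    have h2 : X ⊔ W = Y := by simpa [hW] using hfib Y h le_rfl
    rw [h2] at h1
    omega
  let e : W ≃ₗ[K] (Fin (finrank K Y - finrank K X) → K) :=
    LinearEquiv.ofFinrankEq _ _ (by rw [hWr, finrank_fin_fun])
  have hto : ∀ Z, X ≤ Z → Z ≤ Y →
      finrank K Z = finrank K X + finrank K (Z.comap W.subtype) := by
    intro Z h1 h2
    rw [← hsub, Submodule.map_comap_subtype, ← hrk _ inf_le_left, hfib Z h1 h2]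
  let E : {Z : Submodule K V //
        X ≤ Z ∧ Z ≤ Y ∧ finrank K Z = finrank K X + s} ≃
      {U : Submodule K W // finrank K U = s} :=
    { toFun := fun Z => ⟨Z.1.comap W.subtype, by
        have := hto Z.1 Z.2.1 Z.2.2.1
        have := Z.2.2.2
        omega⟩
      invFun := fun U => ⟨X ⊔ U.1.map W.subtype, le_sup_left,
        sup_le h ((Submodule.map_subtype_le _ _).trans inf_le_left), by
          rw [hrk _ (Submodule.map_subtype_le _ _), hsub, U.2]⟩
      left_inv := fun Z => Subtype.ext (by
        simp only [Submodule.map_comap_subtype]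
        exact hfib Z.1 Z.2.1 Z.2.2.1)
      right_inv := fun U => Subtype.ext (by
        apply Submodule.map_injective_of_injective W.injective_subtype
        simp only [Submodule.map_comap_subtype]
        exact hback _ (Submodule.map_subtype_le _ _)) }
  rw [Nat.card_congr E, subCount]
  refine Nat.card_congr (Equiv.subtypeEquiv (Submodule.orderIsoMapComap e).toEquiv fun U => ?_)
  rw [show (Submodule.orderIsoMapComap e).toEquiv U = U.map (e : W →ₗ[K] _) from rfl,
    LinearEquiv.finrank_map_eq]

end General

lemma subCount_pos {m s : ℕ} (h : s ≤ m) : 0 < subCount K m s := by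
  refine Nat.card_pos_iff.mpr ⟨⟨⟨Submodule.span K
    (Set.range ((Pi.basisFun K (Fin m)) ∘ Fin.castLE h)), ?_⟩⟩, inferInstance⟩
  exact (finrank_span_eq_card ((Pi.basisFun K (Fin m)).linearIndependent.comp _
    (Fin.castLE_injective h))).trans (Fintype.card_fin s)

lemma subCount_zero {m s : ℕ} (h : m < s) : subCount K m s = 0 := by
  refine Nat.card_eq_zero.mpr (Or.inl ⟨fun W => ?_⟩)
  have h1 := Submodule.finrank_le W.1
  rw [finrank_fin_fun, W.2] at h1
  omega

lemma subCount_symm {m s : ℕ} (h : s ≤ m) : subCount K m (m - s) = subCount K m s := by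
  let e : Module.Dual K (Fin m → K) ≃ₗ[K] (Fin m → K) :=
    LinearEquiv.ofFinrankEq _ _ Subspace.dual_finrank_eq
  let E : Submodule K (Fin m → K) ≃ Submodule K (Fin m → K) :=
    ((Subspace.orderIsoFiniteDimensional (K := K) (V := Fin m → K)).toEquiv.trans
      OrderDual.ofDual).trans (Submodule.orderIsoMapComap e).toEquiv
  refine Nat.card_congr (Equiv.subtypeEquiv E fun W => ?_)
  have h1 := Subspace.finrank_add_finrank_dualAnnihilator_eq W
  rw [finrank_fin_fun] at h1
  rw [show E W = (Submodule.dualAnnihilator W).map (e : _ →ₗ[K] _) from rfl,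
    LinearEquiv.finrank_map_eq]
  omega

lemma two_le_card : 2 ≤ Fintype.card K := Fintype.one_lt_card

lemma subCount_one {m : ℕ} (hm : 1 ≤ m) :
    Fintype.card K ^ (m - 1) ≤ subCount K m 1 ∧
      subCount K m 1 ≤ 2 * Fintype.card K ^ (m - 1) := by
  have hp : 2 ≤ Fintype.card K := two_le_card
  have h1 := Projectivization.card K (Fin m → K)
  rw [Nat.card_congr (Projectivization.equivSubmodule K (Fin m → K)),
    Nat.card_fun, Nat.card_eq_fintype_card (α := K), Nat.card_fin] at h1
  change Fintype.card K ^ m - 1 = subCount K m 1 * (Fintype.card K - 1) at h1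
  obtain ⟨n, rfl⟩ : ∃ n, m = n + 1 := ⟨m - 1, by omega⟩
  rw [Nat.add_sub_cancel]
  have hpn : 1 ≤ Fintype.card K ^ n := Nat.one_le_pow _ _ (by omega)
  constructor
  · refine Nat.le_of_mul_le_mul_right ?_ (by omega : 0 < Fintype.card K - 1)
    rw [← h1, pow_succ, Nat.mul_sub, Nat.mul_one]
    omega
  · refine Nat.le_of_mul_le_mul_right ?_ (by omega : 0 < Fintype.card K - 1)
    rw [← h1, pow_succ]
    calc Fintype.card K ^ n * Fintype.card K - 1 ≤ Fintype.card K ^ n * Fintype.card K :=
          Nat.sub_le _ _
      _ ≤ Fintype.card K ^ n * (2 * (Fintype.card K - 1)) := Nat.mul_le_mul_left _ (by omega)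
      _ = _ := by ring

variable (K)

noncomputable instance subFintype (N : ℕ) : Fintype (Submodule K (Fin N → K)) :=
  Fintype.ofFinite _

noncomputable instance subDecEq (N : ℕ) : DecidableEq (Submodule K (Fin N → K)) :=
  Classical.decEq _

/-- The geometry of subspaces. -/
noncomputable def geo (N : ℕ) :
    Geo (Submodule K (Fin N → K)) (Fintype.card K) (subCount K) where
  rk X := finrank K X
  mono h := Submodule.finrank_mono h
  strict h h' := Submodule.eq_of_le_of_finrank_le h h'
  modular X Y := Submodule.finrank_sup_add_finrank_inf_eq X Y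
  count s h := card_interval_subspaces h s
  G_pos h := subCount_pos h
  G_zero h := subCount_zero h
  q_two := two_le_card
  G_one _ hm := subCount_one hm
  G_coatom _ hm := subCount_symm hm

lemma geo_rk {N : ℕ} (X : Submodule K (Fin N → K)) : (geo K N).rk X = finrank K X := rfl

lemma geo_bot (N : ℕ) : (geo K N).rk ⊥ = 0 := finrank_bot _ _

lemma geo_top (N : ℕ) : (geo K N).rk ⊤ = N := by
  rw [geo_rk, finrank_top, finrank_fin_fun]

/-- The upper bound for Gaussian binomials. -/
lemma subCount_le {m s : ℕ} (h : s ≤ m) :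
    subCount K m s ≤ 2 ^ s * Fintype.card K ^ (s * (m - s)) := by
  have hq : 0 < Fintype.card K := Fintype.card_pos
  induction s generalizing m with
  | zero =>
    simp only [Nat.zero_mul, pow_zero, mul_one]
    refine Finite.card_le_one_iff_subsingleton.mpr ⟨fun a b => Subtype.ext ?_⟩
    rw [Submodule.finrank_eq_zero.mp a.2, Submodule.finrank_eq_zero.mp b.2]
  | succ s ih =>
    have hd := (geo K m).double_count (x := ⊥) (y := ⊤) bot_le (e := 1) (s := s + 1) (by omega)
    rw [geo_bot, geo_top, Nat.sub_zero, Nat.add_sub_cancel] at hd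
    have h1 := (subCount_one (K := K) (m := m) (by omega)).2
    have h2 := (subCount_one (K := K) (m := s + 1) (by omega)).1
    rw [Nat.add_sub_cancel] at h2
    have h3 := ih (m := m - 1) (by omega)
    refine Nat.le_of_mul_le_mul_right ?_ (pow_pos hq s)
    calc subCount K m (s + 1) * Fintype.card K ^ s
        ≤ subCount K m (s + 1) * subCount K (s + 1) 1 := Nat.mul_le_mul_left _ h2
      _ = subCount K m 1 * subCount K (m - 1) s := hd.symm
      _ ≤ (2 * Fintype.card K ^ (m - 1)) * (2 ^ s * Fintype.card K ^ (s * (m - 1 - s))) :=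
          Nat.mul_le_mul h1 h3
      _ = _ := by
          obtain ⟨c, rfl⟩ : ∃ c, m = s + 1 + c := ⟨m - (s + 1), by omega⟩
          rw [show s + 1 + c - 1 = s + c by omega, Nat.add_sub_cancel_left,
            Nat.add_sub_cancel_left]
          ring

end Vale.Agent.P067.Full.Mix
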