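import Vale.Agent.P067.Full.Mix.Geo
import Vale.Agent.P067.Full.Finite

/-! Chains opposite to a complete flag: many refinements, transitivity, counting. -/

set_option linter.unusedSectionVars false

namespace Vale.Agent.P067.Full.Mix

open Finset Module Vale.Agent.HDX.Q

variable {K : Type} [Field K] [Fintype K] {b : ℕ} {Fl : ℕ → Submodule K (Fin b → K)}

/-- A subspace opposite to the flag. -/
def Opp (Fl : ℕ → Submodule K (Fin b → K)) (W : Submodule K (Fin b → K)) : Prop :=
  W ⊓ Fl (finrank K W) = ⊥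

lemma opp_bot : Opp Fl (⊥ : Submodule K (Fin b → K)) := bot_inf_eq _

lemma opp_top (hFl : IsCompleteFlag Fl) : Opp Fl (⊤ : Submodule K (Fin b → K)) := by
  have h := hFl.2 b le_rfl
  rw [Nat.sub_self] at h
  rw [Opp, finrank_top, finrank_fin_fun, Submodule.finrank_eq_zero.mp h, inf_bot_eq]

lemma chain_isFlag {σ : Finset (Submodule K (Fin b → K))} (h : IsOppChain Fl σ) :
    IsFlag (geo K b) 0 b σ := by
  refine ⟨fun S _ => ⟨Nat.zero_le _, ?_⟩, h.2⟩
  have := Submodule.finrank_le S
  rwa [finrank_fin_fun] at this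

lemma chain_subset {σ ρ : Finset (Submodule K (Fin b → K))} (h : IsOppChain Fl σ) (hρ : ρ ⊆ σ) :
    IsOppChain Fl ρ :=
  ⟨fun W hW => h.1 W (hρ hW), fun W hW W' hW' => h.2 W (hρ hW) W' (hρ hW')⟩

lemma chain_rank {σ : Finset (Submodule K (Fin b → K))} (h : IsOppChain Fl σ)
    {W : Submodule K (Fin b → K)} (hW : W ∈ σ) : 0 < finrank K W ∧ finrank K W < b := by
  obtain ⟨h1, h2, -⟩ := h.1 W hW
  refine ⟨Nat.pos_of_ne_zero fun h0 => h1 (Submodule.finrank_eq_zero.mp h0), ?_⟩
  have := Submodule.finrank_lt h2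
  rwa [finrank_fin_fun] at this

lemma chain_image {σ : Finset (Submodule K (Fin b → K))} (h : IsOppChain Fl σ) :
    σ.image (fun W : Submodule K (Fin b → K) => finrank K W) ⊆ Finset.Ioo 0 b := by
  intro r hr
  obtain ⟨W, hW, rfl⟩ := Finset.mem_image.mp hr
  exact Finset.mem_Ioo.mpr (chain_rank h hW)

lemma exists_rank {τ : Finset (Submodule K (Fin b → K))} (h : IsOppChain Fl τ)
    (hc : τ.card = b - 1) {k : ℕ} (h0 : 0 < k) (hk : k < b) : ∃ W ∈ τ, finrank K W = k := by
  have e : τ.image (fun W : Submodule K (Fin b → K) => finrank K W) = Finset.Ioo 0 b := by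
    refine Finset.eq_of_subset_of_card_le (chain_image h) ?_
    have : Set.InjOn (fun W : Submodule K (Fin b → K) => finrank K W) τ := (chain_isFlag h).injOn
    rw [Finset.card_image_of_injOn this, hc, Nat.card_Ioo]
    omega
  have hm : k ∈ τ.image (fun W : Submodule K (Fin b → K) => finrank K W) := by rw [e]; exact Finset.mem_Ioo.mpr ⟨h0, hk⟩
  exact Finset.mem_image.mp hm

/-- Between two opposite subspaces at least `q ^ ((k - w) (w' - k))` subspaces of dimension `k`
are opposite. -/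
lemma oppCount (hFl : IsCompleteFlag Fl) {W W' : Submodule K (Fin b → K)} (hW : Opp Fl W)
    (hW' : Opp Fl W') (hle : W ≤ W') {k : ℕ} (h1 : finrank K W ≤ k) (h2 : k ≤ finrank K W') :
    Fintype.card K ^ ((k - finrank K W) * (finrank K W' - k)) ≤
      Nat.card {Z : Submodule K (Fin b → K) //
        W ≤ Z ∧ Z ≤ W' ∧ finrank K Z = k ∧ Z ⊓ Fl k = ⊥} := by
  classical
  set w := finrank K W with hw
  set w' := finrank K W' with hw'
  have hb : w' ≤ b := by
    have := Submodule.finrank_le W'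
    rwa [finrank_fin_fun] at this
  have hmeet : ∀ l, l ≤ w' → finrank K ↥(W' ⊓ Fl l) = w' - l := by
    intro l hl
    have hsup : W' ⊔ Fl l = ⊤ := by
      refine top_le_iff.mp ((top_le_iff.mpr ?_).trans (sup_le_sup_left (hFl.1 hl) _))
      refine Submodule.eq_top_of_finrank_eq ?_
      have h := Submodule.finrank_sup_add_finrank_inf_eq W' (Fl w')
      rw [hW', finrank_bot, hFl.2 w' hb] at h
      rw [finrank_fin_fun]
      omega
    have h := Submodule.finrank_sup_add_finrank_inf_eq W' (Fl l)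
    rw [hsup, finrank_top, finrank_fin_fun, hFl.2 l (hl.trans hb)] at h
    omega
  set U := W' ⊓ Fl w with hU
  set Uk := W' ⊓ Fl k with hUk
  have hUkU : Uk ≤ U := inf_le_inf_left _ (hFl.1 h1)
  obtain ⟨C, hC⟩ := exists_isCompl (Uk.comap U.subtype)
  set C' : Submodule K (Fin b → K) := C.map U.subtype with hC'
  have hC'U : C' ≤ U := Submodule.map_subtype_le _ _
  have hC'k : C' ⊓ Uk = ⊥ := by
    refine eq_bot_iff.mpr fun x hx => ?_
    obtain ⟨y, hy, rfl⟩ := Submodule.mem_map.mp hx.1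
    have hyy : y ∈ C ⊓ Uk.comap U.subtype := ⟨hy, hx.2⟩
    rw [inf_comm, hC.inf_eq_bot, Submodule.mem_bot] at hyy
    rw [hyy]
    simp
  have hC'rk : finrank K C' = k - w := by
    have e1 := Submodule.finrank_add_eq_of_isCompl hC
    have e2 : finrank K ↥(Uk.comap U.subtype) = finrank K Uk :=
      (Submodule.comapSubtypeEquivOfLe hUkU).finrank_eq
    rw [hC', Submodule.finrank_map_subtype_eq]
    have eU : finrank K U = w' - w := hmeet w (h1.trans h2)
    have eUk : finrank K Uk = w' - k := hmeet k h2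
    omega
  let φ : (C' →ₗ[K] Uk) → C' →ₗ[K] (Fin b → K) := fun A => C'.subtype + Uk.subtype.comp A
  have hφ : ∀ A c, φ A c = (c : Fin b → K) + (A c : Fin b → K) := fun A c => rfl
  have key : ∀ A, W ≤ W ⊔ LinearMap.range (φ A) ∧ W ⊔ LinearMap.range (φ A) ≤ W' ∧
      finrank K ↥(W ⊔ LinearMap.range (φ A)) = k ∧ (W ⊔ LinearMap.range (φ A)) ⊓ Fl k = ⊥ := by
    intro A
    have hzero : ∀ x ∈ W, ∀ c : C', x + φ A c ∈ Fl k → x = 0 ∧ c = 0 := by
      intro x hx c hc
      have hcw : φ A c ∈ Fl w := by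
        rw [hφ]
        exact Submodule.add_mem _ (hC'U c.2).2 (hUkU (A c).2).2
      have hxw : x ∈ Fl w := by
        have hm := Submodule.sub_mem _ (hFl.1 h1 hc) hcw
        simpa using hm
      have hx0 : x = 0 := by
        have hm : x ∈ W ⊓ Fl (finrank K W) := ⟨hx, hxw⟩
        rwa [hW, Submodule.mem_bot] at hm
      refine ⟨hx0, ?_⟩
      rw [hx0, zero_add, hφ] at hc
      have hck : (c : Fin b → K) ∈ Fl k := by
        have hm := Submodule.sub_mem _ hc (A c).2.2
        simpa using hm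
      have hm : (c : Fin b → K) ∈ C' ⊓ Uk := ⟨c.2, (hC'U c.2).1, hck⟩
      rw [hC'k, Submodule.mem_bot] at hm
      exact Subtype.ext hm
    have hinj : Function.Injective (φ A) := by
      refine (injective_iff_map_eq_zero _).mpr fun c hc => (hzero 0 W.zero_mem c ?_).2
      rw [hc, zero_add]
      exact Submodule.zero_mem _
    refine ⟨le_sup_left, sup_le hle ?_, ?_, ?_⟩
    · rintro x ⟨c, rfl⟩
      rw [hφ]
      exact Submodule.add_mem _ (hC'U c.2).1 (A c).2.1
    · have h := Submodule.finrank_sup_add_finrank_inf_eq W (LinearMap.range (φ A))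
      have hb0 : W ⊓ LinearMap.range (φ A) = ⊥ := by
        refine eq_bot_iff.mpr fun x hx => ?_
        obtain ⟨c, hc⟩ := hx.2
        have := hzero x hx.1 (-c) (by rw [map_neg, hc, add_neg_cancel]; exact Submodule.zero_mem _)
        rw [this.1]
        exact Submodule.zero_mem _
      rw [hb0, finrank_bot, LinearMap.finrank_range_of_inj hinj, hC'rk] at h
      omega
    · refine eq_bot_iff.mpr fun z hz => ?_
      obtain ⟨x, hx, y, hy, rfl⟩ := Submodule.mem_sup.mp hz.1
      obtain ⟨c, rfl⟩ := hy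
      obtain ⟨h3, h4⟩ := hzero x hx c hz.2
      rw [h3, h4, map_zero, add_zero]
      exact Submodule.zero_mem _
  let F : (C' →ₗ[K] Uk) → {Z : Submodule K (Fin b → K) //
      W ≤ Z ∧ Z ≤ W' ∧ finrank K Z = k ∧ Z ⊓ Fl k = ⊥} := fun A => ⟨_, key A⟩
  have hFinj : Function.Injective F := by
    intro A B hAB
    have e : W ⊔ LinearMap.range (φ A) = W ⊔ LinearMap.range (φ B) := congrArg Subtype.val hAB
    refine LinearMap.ext fun c => Subtype.ext (sub_eq_zero.mp ?_)
    have hm : φ A c - φ B c ∈ (W ⊔ LinearMap.range (φ A)) ⊓ Fl k := by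
      refine ⟨Submodule.sub_mem _ (le_sup_right (a := W) ⟨c, rfl⟩) ?_, ?_⟩
      · rw [e]
        exact le_sup_right (a := W) ⟨c, rfl⟩
      · rw [hφ, hφ, add_sub_add_left_eq_sub]
        exact Submodule.sub_mem _ (A c).2.2 (B c).2.2
    rw [(key A).2.2.2, Submodule.mem_bot, hφ, hφ, add_sub_add_left_eq_sub] at hm
    exact hm
  refine le_trans (le_of_eq ?_) (Nat.card_le_card_of_injective F hFinj)
  rw [Module.natCard_eq_pow_finrank (K := K), Nat.card_eq_fintype_card, Module.finrank_linearMap,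
    hC'rk, hUk, hmeet k h2]

lemma lo_opp {σ : Finset (Submodule K (Fin b → K))} (h : IsOppChain Fl σ) (k : ℕ) :
    Opp Fl ((σ.filter fun S => (geo K b).rk S < k).sup id) := by
  rcases (σ.filter fun S => (geo K b).rk S < k).eq_empty_or_nonempty with he | hne
  · rw [he, Finset.sup_empty]
    exact opp_bot
  · obtain ⟨M, hM, hmax⟩ := Finset.exists_max_image _ (geo K b).rk hne
    have e : (σ.filter fun S => (geo K b).rk S < k).sup id = M := le_antisymm
      (Finset.sup_le fun S hS => (chain_isFlag h).le_of_rk (Finset.mem_filter.mp hS).1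
        (Finset.mem_filter.mp hM).1 (hmax S hS))
      (Finset.le_sup (f := id) hM)
    rw [e]
    exact (h.1 M (Finset.mem_filter.mp hM).1).2.2

lemma hi_opp (hFl : IsCompleteFlag Fl) {σ : Finset (Submodule K (Fin b → K))}
    (h : IsOppChain Fl σ) (k : ℕ) :
    Opp Fl ((σ.filter fun S => k < (geo K b).rk S).inf id) := by
  rcases (σ.filter fun S => k < (geo K b).rk S).eq_empty_or_nonempty with he | hne
  · rw [he, Finset.inf_empty]
    exact opp_top hFl
  · obtain ⟨M, hM, hmin⟩ := Finset.exists_min_image _ (geo K b).rk hne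
    have e : (σ.filter fun S => k < (geo K b).rk S).inf id = M := le_antisymm
      (Finset.inf_le (f := id) hM)
      (Finset.le_inf fun S hS => (chain_isFlag h).le_of_rk (Finset.mem_filter.mp hM).1
        (Finset.mem_filter.mp hS).1 (hmin S hS))
    rw [e]
    exact (h.1 M (Finset.mem_filter.mp hM).1).2.2

/-- Adding a member of a missing rank. -/
lemma chain_insert {σ : Finset (Submodule K (Fin b → K))} (h : IsOppChain Fl σ) {k : ℕ}
    (h0 : 0 < k) (hk : k < b) (hσ : k ∉ σ.image (geo K b).rk) {Z : Submodule K (Fin b → K)}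
    (hZ : Z ∈ (geo K b).level ((σ.filter fun S => (geo K b).rk S < k).sup id)
      ((σ.filter fun S => k < (geo K b).rk S).inf id) k)
    (hopp : Z ⊓ Fl k = ⊥) : IsOppChain Fl (insert Z σ) := by
  rw [← fits_eq_level (chain_isFlag h) hσ rfl rfl] at hZ
  have hflag := (chain_isFlag h).insert (Nat.zero_le k) hk.le hZ
  refine ⟨fun W hW => ?_, hflag.2⟩
  rcases Finset.mem_insert.mp hW with rfl | hW
  · have hr : finrank K W = k := (mem_fits.mp hZ).1
    refine ⟨fun h' => ?_, fun h' => ?_, by rwa [hr]⟩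
    · rw [h', finrank_bot] at hr; omega
    · rw [h', finrank_top, finrank_fin_fun] at hr; omega
  · exact h.1 W hW

open Classical in
/-- The complete opposite chains through a chain. -/
noncomputable def full (Fl : ℕ → Submodule K (Fin b → K))
    (σ : Finset (Submodule K (Fin b → K))) : Finset (Finset (Submodule K (Fin b → K))) :=
  Finset.univ.filter fun τ => IsOppChain Fl τ ∧ τ.card = b - 1 ∧ σ ⊆ τ

lemma mem_full {σ τ : Finset (Submodule K (Fin b → K))} :
    τ ∈ full Fl σ ↔ IsOppChain Fl τ ∧ τ.card = b - 1 ∧ σ ⊆ τ := by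
  simp [full]

lemma full_nonempty (hFl : IsCompleteFlag Fl) {σ : Finset (Submodule K (Fin b → K))}
    (h : IsOppChain Fl σ) : (full Fl σ).Nonempty := by
  generalize hn : b - 1 - σ.card = n
  induction n generalizing σ with
  | zero =>
    refine ⟨σ, mem_full.mpr ⟨h, ?_, subset_rfl⟩⟩
    have := Finset.card_le_card (chain_image h)
    have hi : Set.InjOn (fun W : Submodule K (Fin b → K) => finrank K W) σ := (chain_isFlag h).injOn
    rw [Finset.card_image_of_injOn hi, Nat.card_Ioo] at this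
    omega
  | succ n ih =>
    obtain ⟨k, hk, hkσ⟩ : ∃ k ∈ Finset.Ioo 0 b, k ∉ σ.image (geo K b).rk := by
      refine Finset.exists_mem_notMem_of_card_lt_card ?_
      rw [Finset.card_image_of_injOn (chain_isFlag h).injOn, Nat.card_Ioo]
      omega
    obtain ⟨hk0, hkb⟩ := Finset.mem_Ioo.mp hk
    have hlr := lo_rk_le (chain_isFlag h) (by rw [geo_bot]) (Nat.zero_le k)
    have hhr := hi_rk_ge (chain_isFlag h) (by rw [geo_top]) hkb.le
    have hc := oppCount hFl (lo_opp h k) (hi_opp hFl h k) (lo_le_hi (chain_isFlag h) k) hlr hhr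
    obtain ⟨⟨Z, z1, z2, z3, z4⟩⟩ :=
      (Nat.card_pos_iff.mp (lt_of_lt_of_le (pow_pos Fintype.card_pos _) hc)).1
    have hins := chain_insert h hk0 hkb hkσ ((geo K b).mem_level.mpr ⟨z1, z2, z3⟩) z4
    have hZσ : Z ∉ σ := fun hm => hkσ (Finset.mem_image.mpr ⟨Z, hm, z3⟩)
    obtain ⟨τ, hτ⟩ := ih hins (by rw [Finset.card_insert_of_notMem hZσ]; omega)
    obtain ⟨t1, t2, t3⟩ := mem_full.mp hτ
    exact ⟨τ, mem_full.mpr ⟨t1, t2, (Finset.subset_insert _ _).trans t3⟩⟩

/-- A complete opposite chain comes from a basis adapted to the flag. -/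
lemma adapted_basis (hFl : IsCompleteFlag Fl) {τ : Finset (Submodule K (Fin b → K))}
    (h : IsOppChain Fl τ) (hc : τ.card = b - 1) :
    ∃ e : Basis (Fin b) K (Fin b → K),
      (∀ W ∈ τ, W = Submodule.span K (e '' {m | (m : ℕ) < finrank K W})) ∧
      ∀ l ≤ b, Fl l = Submodule.span K (e '' {m | l ≤ (m : ℕ)}) := by
  classical
  have hX : ∀ k, k ≤ b → ∃ X : Submodule K (Fin b → K), Opp Fl X ∧ finrank K X = k ∧
      (∀ W ∈ τ, (W ≤ X ∧ finrank K W ≤ k) ∨ (X ≤ W ∧ k ≤ finrank K W)) := by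
    intro k hk
    rcases Nat.eq_zero_or_pos k with rfl | hk0
    · exact ⟨⊥, opp_bot, finrank_bot _ _, fun W _ => Or.inr ⟨bot_le, Nat.zero_le _⟩⟩
    rcases hk.eq_or_lt with rfl | hkb
    · refine ⟨⊤, opp_top hFl, by rw [finrank_top, finrank_fin_fun],
        fun W _ => Or.inl ⟨le_top, ?_⟩⟩
      have := Submodule.finrank_le W
      rwa [finrank_fin_fun] at this
    obtain ⟨X, hX, hXk⟩ := exists_rank h hc hk0 hkb
    refine ⟨X, (h.1 X hX).2.2, hXk, fun W hW => ?_⟩
    rcases h.2 W hW X hX with h1 | h1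
    · exact Or.inl ⟨h1, hXk ▸ Submodule.finrank_mono h1⟩
    · exact Or.inr ⟨h1, hXk ▸ Submodule.finrank_mono h1⟩
  choose! X hXo hXr hXc using hX
  have hmem : ∀ W ∈ τ, W = X (finrank K W) := by
    intro W hW
    have hb := (chain_rank h hW).2.le
    rcases hXc _ hb W hW with ⟨h1, -⟩ | ⟨h1, -⟩
    · exact Submodule.eq_of_le_of_finrank_eq h1 (hXr _ hb).symm
    · exact (Submodule.eq_of_le_of_finrank_eq h1 (hXr _ hb)).symm
  have hmono : ∀ k, k < b → X k ≤ X (k + 1) := by
    intro k hk
    rcases Nat.eq_zero_or_pos k with rfl | hk0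
    · rw [Submodule.finrank_eq_zero.mp (hXr 0 (Nat.zero_le _))]
      exact bot_le
    obtain ⟨W, hW, hWk⟩ := exists_rank h hc hk0 hk
    rcases hXc (k + 1) hk W hW with ⟨h1, -⟩ | ⟨-, h1⟩
    · rw [hmem W hW, hWk] at h1
      exact h1
    · omega
  have hv : ∀ k : Fin b, ∃ v, v ∈ X ((k : ℕ) + 1) ∧ v ∈ Fl (k : ℕ) ∧ v ∉ X (k : ℕ) := by
    intro k
    have h1 := Submodule.finrank_sup_add_finrank_inf_eq (X ((k : ℕ) + 1)) (Fl (k : ℕ))
    have h2 := Submodule.finrank_le (X ((k : ℕ) + 1) ⊔ Fl (k : ℕ))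
    rw [finrank_fin_fun] at h2
    rw [hXr _ k.2, hFl.2 _ k.2.le] at h1
    have hk := k.2
    have h3 : X ((k : ℕ) + 1) ⊓ Fl (k : ℕ) ≠ ⊥ := fun h4 => by
      rw [h4, finrank_bot] at h1; omega
    obtain ⟨v, hv, hv0⟩ := Submodule.exists_mem_ne_zero_of_ne_bot h3
    refine ⟨v, hv.1, hv.2, fun hvX => hv0 ?_⟩
    have hm : v ∈ X (k : ℕ) ⊓ Fl (finrank K (X (k : ℕ))) := ⟨hvX, by rw [hXr _ k.2.le]; exact hv.2⟩
    rwa [hXo _ k.2.le, Submodule.mem_bot] at hm
  choose v hv1 hv2 hv3 using hv
  have hspan : ∀ k, k ≤ b → X k = Submodule.span K (v '' {m | (m : ℕ) < k}) := by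
    intro k
    induction k with
    | zero =>
      intro hk
      rw [Submodule.finrank_eq_zero.mp (hXr 0 hk)]
      simp
    | succ k ih =>
      intro hk
      have hlt : k < b := hk
      have hset : ({m : Fin b | (m : ℕ) < k + 1}) = insert (⟨k, hlt⟩ : Fin b) {m : Fin b | (m : ℕ) < k} := by
        ext m
        simp only [Set.mem_setOf_eq, Set.mem_insert_iff, Fin.ext_iff]
        omega
      rw [hset, Set.image_insert_eq, Submodule.span_insert, ← ih hlt.le]
      refine (Submodule.eq_of_le_of_finrank_le (sup_le ?_ (hmono k hlt)) ?_).symm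
      · rw [Submodule.span_le, Set.singleton_subset_iff]
        exact hv1 ⟨k, hlt⟩
      · have hlt' : X k < Submodule.span K {v ⟨k, hlt⟩} ⊔ X k := by
          refine lt_of_le_of_ne le_sup_right fun he => hv3 ⟨k, hlt⟩ ?_
          show v ⟨k, hlt⟩ ∈ X k
          rw [he]
          exact Submodule.mem_sup_left (Submodule.mem_span_singleton_self _)
        have := Submodule.finrank_lt_finrank_of_lt hlt'
        rw [hXr k hlt.le] at this
        rw [hXr (k + 1) hk]
        omega
  have htop : ⊤ ≤ Submodule.span K (Set.range v) := by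
    have e := hspan b le_rfl
    have hset : ({m : Fin b | (m : ℕ) < b}) = Set.univ := Set.eq_univ_of_forall fun m => m.2
    rw [hset, Set.image_univ] at e
    rw [← e]
    exact top_le_iff.mpr (Submodule.eq_top_of_finrank_eq (by rw [hXr b le_rfl, finrank_fin_fun]))
  let e := basisOfTopLeSpanOfCardEqFinrank v htop (by rw [Fintype.card_fin, finrank_fin_fun])
  have he : (e : Fin b → Fin b → K) = v := coe_basisOfTopLeSpanOfCardEqFinrank _ _ _
  refine ⟨e, fun W hW => ?_, fun l hl => ?_⟩
  · rw [he, ← hspan _ (chain_rank h hW).2.le, ← hmem W hW]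
  · rw [he]
    refine (Submodule.eq_of_le_of_finrank_le (Submodule.span_le.mpr ?_) ?_).symm
    · rintro _ ⟨m, hm, rfl⟩
      exact hFl.1 hm (hv2 m)
    · have hli : LinearIndependent K v := he ▸ e.linearIndependent
      have hcard := finrank_span_eq_card (hli.comp
        (fun m : {m : Fin b // l ≤ (m : ℕ)} => (m : Fin b)) Subtype.val_injective)
      rw [Set.range_comp, Subtype.range_coe_subtype] at hcard
      rw [hcard, hFl.2 l hl, Fintype.card_subtype]
      refine le_of_eq_of_le ?_ (Finset.card_le_card_of_injOn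
        (s := (Finset.univ : Finset (Fin (b - l)))) (fun j => (⟨l + j, by omega⟩ : Fin b)) ?_ ?_)
      · simp
      · intro j _
        simp
      · intro j _ j' _ hjj
        simp only [Fin.mk.injEq] at hjj
        exact Fin.ext (by omega)

/-- The number of completions depends only on the ranks. -/
lemma full_card (hFl : IsCompleteFlag Fl) {σ σ' : Finset (Submodule K (Fin b → K))}
    (h : IsOppChain Fl σ) (h' : IsOppChain Fl σ')
    (he : σ.image (fun W : Submodule K (Fin b → K) => finrank K W) = σ'.image (fun W : Submodule K (Fin b → K) => finrank K W)) :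
    (full Fl σ).card = (full Fl σ').card := by
  classical
  suffices key : ∀ σ σ' : Finset (Submodule K (Fin b → K)), IsOppChain Fl σ → IsOppChain Fl σ' →
      σ.image (fun W : Submodule K (Fin b → K) => finrank K W) = σ'.image (fun W : Submodule K (Fin b → K) => finrank K W) →
      (full Fl σ).card ≤ (full Fl σ').card from
    le_antisymm (key σ σ' h h' he) (key σ' σ h' h he.symm)
  intro σ σ' h h' he
  obtain ⟨τ, hτ⟩ := full_nonempty hFl h
  obtain ⟨τ', hτ'⟩ := full_nonempty hFl h'
  obtain ⟨t1, t2, t3⟩ := mem_full.mp hτ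
  obtain ⟨u1, u2, u3⟩ := mem_full.mp hτ'
  obtain ⟨e, he1, he2⟩ := adapted_basis hFl t1 t2
  obtain ⟨e', he1', he2'⟩ := adapted_basis hFl u1 u2
  let g : (Fin b → K) ≃ₗ[K] (Fin b → K) := e.equiv e' (Equiv.refl _)
  let gm := fun W : Submodule K (Fin b → K) => W.map (g : (Fin b → K) →ₗ[K] (Fin b → K))
  have hspan : ∀ S : Set (Fin b),
      gm (Submodule.span K (e '' S)) = Submodule.span K (e' '' S) := by
    intro S
    simp only [gm]
    rw [Submodule.map_span, ← Set.image_comp]
    congr 1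
    refine Set.image_congr' fun m => ?_
    simp [g]
  have hFlg : ∀ l ≤ b, gm (Fl l) = Fl l := fun l hl => by rw [he2 l hl, hspan, ← he2 l hl, ← he2' l hl]
  have hginj : Function.Injective gm := Submodule.map_injective_of_injective g.injective
  have hrk : ∀ W, finrank K ↥(gm W) = finrank K W := fun W => LinearEquiv.finrank_map_eq g W
  refine Finset.card_le_card_of_injOn (fun ρ => ρ.image gm) (fun ρ hρ => ?_)
    (Finset.image_injective hginj).injOn
  obtain ⟨r1, r2, r3⟩ := mem_full.mp hρ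
  refine mem_full.mpr ⟨⟨fun W hW => ?_, fun W hW W' hW' => ?_⟩, ?_, fun W hW => ?_⟩
  · obtain ⟨W, hWρ, rfl⟩ := Finset.mem_image.mp hW
    obtain ⟨a1, a2, a3⟩ := r1.1 W hWρ
    refine ⟨fun hb => a1 (hginj (hb.trans (Submodule.map_bot _).symm)),
      fun hb => a2 (hginj ?_), ?_⟩
    · rw [hb]
      simp [gm]
    · rw [hrk, ← hFlg _ (chain_rank r1 hWρ).2.le]
      simp only [gm]
      rw [← Submodule.map_inf _ g.injective, a3, Submodule.map_bot]
  · obtain ⟨Y, hY, rfl⟩ := Finset.mem_image.mp hW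
    obtain ⟨Y', hY', rfl⟩ := Finset.mem_image.mp hW'
    exact (r1.2 Y hY Y' hY').imp (Submodule.map_mono ·) (Submodule.map_mono ·)
  · rw [Finset.card_image_of_injective _ hginj, r2]
  · have hm : finrank K W ∈ σ.image (fun W : Submodule K (Fin b → K) => finrank K W) := by
      rw [he]; exact Finset.mem_image_of_mem _ hW
    obtain ⟨Y, hY, hYW⟩ := Finset.mem_image.mp hm
    refine Finset.mem_image.mpr ⟨Y, r3 hY, ?_⟩
    rw [he1 Y (t3 hY), hspan, hYW, ← he1' W (u3 hW)]

end Vale.Agent.P067.Full.Mix
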